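import Vale.Agent.P032.S5.H360.Degree

/-!
# P032: the two thin wedges of an exact arc (frame `Irr U T`)

`z`, an arc of `S(z)` with palette `{a, b}` at the direction `α₀`; the other colours of `T z` are split into
`K` and `L` such that near `z` a palette which meets `K` and `L` contains `a` and `b`.  The two thin wedges at
`z` orthogonal to the arc have no colour `a`, `b`, so each of them has only colours of `K` or only colours of `L`.

* `absorb` : if both wedges are free of `K`, then near `z` the points with palette inside `K` are in `U a ∪ U b`;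
* `rays` : with minimality one wedge has only colours of `K`, the other one only colours of `L`.
-/

open Set Filter Topology Metric Pointwise

noncomputable section

namespace Vale.Agent.P032.H660

open Vale.Agent.P032.Six

variable {k : ℕ} {U : Fin k → Set ℂ} {T : ℂ → Set (Fin k)}

/-- the part in `closedBall z r` of the unit circle about `w` is free of the colour `i` -/
def Fr (U : Fin k → Set ℂ) (z : ℂ) (r : ℝ) (i : Fin k) : Set ℂ :=
  {w | ∀ v ∈ closedBall z r, dist v w = 1 → i ∉ Pal U v}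

theorem isOpen_Fr (z : ℂ) (r : ℝ) (i : Fin k) : IsOpen (Fr U z r i) := by
  have h1 : (Fr U z r i)ᶜ = (closedBall z r ∩ closure (U i)) + sphere (0 : ℂ) 1 := by
    ext w
    constructor
    · intro hw
      have hw' : ¬ ∀ v ∈ closedBall z r, dist v w = 1 → i ∉ Pal U v := hw
      push Not at hw'
      obtain ⟨v, hv, hvw, hi⟩ := hw'
      refine Set.mem_add.2 ⟨v, ⟨hv, hi⟩, w - v, ?_, by ring⟩
      rw [mem_sphere, dist_zero_right, ← dist_eq_norm, dist_comm]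
      exact hvw
    · intro hw
      obtain ⟨v, ⟨hv, hi⟩, s, hs, rfl⟩ := Set.mem_add.1 hw
      intro hcon
      refine hcon v hv ?_ hi
      rw [mem_sphere, dist_zero_right] at hs
      rw [dist_eq_norm, show v - (v + s) = -s by ring, norm_neg]
      exact hs
  rw [← isClosed_compl_iff, h1]
  exact (((isCompact_closedBall z r).inter_right isClosed_closure).add (isCompact_sphere 0 1)).isClosed

/-- `cis` is injective on intervals shorter than six -/
theorem cis_inj {s t : ℝ} (h : |s - t| < 6) (hst : cis s = cis t) : s = t := by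
  unfold cis at hst
  obtain ⟨n, hn⟩ := Complex.exp_eq_exp_iff_exists_int.1 hst
  have h1 : (s : ℂ) = t + n * (2 * Real.pi) := by
    have hI := Complex.I_ne_zero
    have : ((s : ℂ) - (t + n * (2 * Real.pi))) * Complex.I = 0 := by
      linear_combination hn
    rcases mul_eq_zero.1 this with h | h
    · linear_combination h
    · exact absurd h hI
  have h2 : s = t + n * (2 * Real.pi) := by exact_mod_cast h1
  have hpi := Real.pi_gt_three
  have h4 : n = 0 := by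
    by_contra hne
    have h5 : (1 : ℝ) ≤ |(n : ℝ)| := by
      have : (1 : ℤ) ≤ |n| := Int.one_le_abs hne
      exact_mod_cast this
    have h6 : |s - t| = |(n : ℝ)| * (2 * Real.pi) := by
      rw [h2, add_sub_cancel_left, abs_mul, abs_of_pos (by positivity : (0 : ℝ) < 2 * Real.pi)]
    nlinarith
  rw [h2, h4]; simp

/-- the points of the wedges: on the unit circle about `z + cis α`, the angle `τ` away from `z` -/
def Wd (z : ℂ) (α τ : ℝ) : ℂ := z + cis α - cis (α + τ)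

theorem Wd_zero (z : ℂ) (α : ℝ) : Wd z α 0 = z := by simp [Wd]

theorem dist_Wd (z : ℂ) (α τ : ℝ) : dist (Wd z α τ) (z + cis α) = 1 := by
  rw [Wd, dist_eq_norm, show z + cis α - cis (α + τ) - (z + cis α) = -cis (α + τ) by ring, norm_neg, norm_cis]

theorem continuous_Wd : Continuous fun x : ℂ × ℝ × ℝ => Wd x.1 x.2.1 x.2.2 := by
  unfold Wd
  have h1 := continuous_cis
  fun_prop

theorem Wd_inj {z : ℂ} {α s t : ℝ} (h : |s - t| < 6) (hst : Wd z α s = Wd z α t) : s = t := by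
  have h1 : cis (α + s) = cis (α + t) := by
    unfold Wd at hst
    linear_combination -hst
  have h2 := cis_inj (by rw [add_sub_add_left_eq_sub]; exact h) h1
  linarith

theorem isClosed_meet (h : Irr U T) (K : Set (Fin k)) : IsClosed {v | (T v ∩ K).Nonempty} := by
  have h1 : {v | (T v ∩ K).Nonempty} = ⋃ i ∈ K, {v | i ∈ T v} := by
    ext v
    constructor
    · rintro ⟨i, hi, hiK⟩
      exact mem_iUnion₂.2 ⟨i, hiK, hi⟩
    · intro hv
      obtain ⟨i, hiK, hi⟩ := mem_iUnion₂.1 hv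
      exact ⟨i, hi, hiK⟩
  rw [h1]
  exact (Set.toFinite K).isClosed_biUnion fun i _ => h.closed i

/-- the facts in the small disc about `z` -/
structure Loc (U : Fin k → Set ℂ) (T : ℂ → Set (Fin k)) (z : ℂ) (r : ℝ) (a b : Fin k) (K L : Set (Fin k)) :
    Prop where
  rlt : r < 1 / 2
  tsub : ∀ v ∈ closedBall z r, ∀ i ∈ T v, i = a ∨ i = b ∨ i ∈ K ∨ i ∈ L
  p1 : ∀ v ∈ closedBall z r, (T v ∩ K).Nonempty → (T v ∩ L).Nonempty → a ∈ T v ∧ b ∈ T v

/-- a chord with at most one point of the colours `a`, `b` -/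
theorem chord_contra (h : Irr U T) {z p f : ℂ} {r η α₀ : ℝ} {a b : Fin k} {K L : Set (Fin k)}
    (H : Loc U T z r a b K L) (hη : 0 < η) (hη1 : η < 1)
    (harc : ∀ τ, |τ| ≤ η → Wd p α₀ τ ∈ closedBall z r)
    (he1 : ¬ (T (Wd p α₀ η) ∩ K).Nonempty) (he2 : ¬ (T (Wd p α₀ (-η)) ∩ K).Nonempty)
    (hpK : (T p ∩ K).Nonempty) (hpab : ¬ (a ∈ T p ∧ b ∈ T p))
    (hf : ∀ v ∈ closedBall z r, dist v (p + cis α₀) = 1 → v ≠ f → a ∉ Pal U v ∧ b ∉ Pal U v) : False := by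
  have hs : ∃ s : ℝ, (s = 1 ∨ s = -1) ∧ ∀ τ, 0 < τ → τ ≤ η → Wd p α₀ (s * τ) ≠ f := by
    by_contra hcon
    push Not at hcon
    obtain ⟨t1, h1, h2, h3⟩ := hcon 1 (Or.inl rfl)
    obtain ⟨t2, h4, h5, h6⟩ := hcon (-1) (Or.inr rfl)
    have h7 := Wd_inj (z := p) (α := α₀) (s := 1 * t1) (t := -1 * t2) (by
      rw [abs_lt]; constructor <;> linarith) (h3.trans h6.symm)
    linarith
  obtain ⟨s, hs, hsf⟩ := hs
  have hsabs : ∀ τ, 0 ≤ τ → τ ≤ η → |s * τ| ≤ η := by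
    intro τ h0 h1
    rcases hs with rfl | rfl
    · rw [one_mul, abs_of_nonneg h0]; exact h1
    · rw [neg_one_mul, abs_neg, abs_of_nonneg h0]; exact h1
  have hend : ¬ (T (Wd p α₀ (s * η)) ∩ K).Nonempty := by
    rcases hs with rfl | rfl
    · rw [one_mul]; exact he1
    · rw [neg_one_mul]; exact he2
  have hcont : Continuous fun τ : ℝ => Wd p α₀ (s * τ) := by
    unfold Wd
    have h1 := continuous_cis
    fun_prop
  have hA : IsPreconnected ((fun τ : ℝ => Wd p α₀ (s * τ)) '' Icc 0 η) :=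
    isPreconnected_Icc.image _ hcont.continuousOn
  -- the points of the chord
  have hpt : ∀ τ, 0 ≤ τ → τ ≤ η → τ ≠ 0 → a ∉ Pal U (Wd p α₀ (s * τ)) ∧ b ∉ Pal U (Wd p α₀ (s * τ)) := by
    intro τ h0 h1 h2
    exact hf _ (harc _ (hsabs τ h0 h1)) (dist_Wd p α₀ _) (hsf τ (lt_of_le_of_ne h0 (Ne.symm h2)) h1)
  have hor : ∀ τ, 0 ≤ τ → τ ≤ η → τ ≠ 0 → ∀ i ∈ T (Wd p α₀ (s * τ)), i ∈ K ∨ i ∈ L := by
    intro τ h0 h1 h2 i hi
    obtain ⟨h3, h4⟩ := hpt τ h0 h1 h2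
    rcases H.tsub _ (harc _ (hsabs τ h0 h1)) i hi with rfl | rfl | h5 | h5
    · exact absurd (h.sub _ hi) h3
    · exact absurd (h.sub _ hi) h4
    · exact Or.inl h5
    · exact Or.inr h5
  obtain ⟨v, hvA, hvK, hvL⟩ := isPreconnected_closed_iff.1 hA {v | (T v ∩ K).Nonempty}
    {v | (T v ∩ L).Nonempty} (isClosed_meet h K) (isClosed_meet h L)
    (by
      rintro _ ⟨τ, ⟨h0, h1⟩, rfl⟩
      by_cases h2 : τ = 0
      · left
        simp only [h2, mul_zero, Wd_zero]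
        exact hpK
      · obtain ⟨i, hi⟩ := h.ne (Wd p α₀ (s * τ))
        rcases hor τ h0 h1 h2 i hi with h3 | h3
        · exact Or.inl ⟨i, hi, h3⟩
        · exact Or.inr ⟨i, hi, h3⟩)
    ⟨p, ⟨0, ⟨le_rfl, hη.le⟩, by simp only [mul_zero, Wd_zero]⟩, hpK⟩
    ⟨Wd p α₀ (s * η), ⟨η, ⟨hη.le, le_rfl⟩, rfl⟩, by
      obtain ⟨i, hi⟩ := h.ne (Wd p α₀ (s * η))
      rcases hor η hη.le le_rfl hη.ne' i hi with h3 | h3
      · exact absurd ⟨i, hi, h3⟩ hend
      · exact ⟨i, hi, h3⟩⟩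
  obtain ⟨τ, ⟨h0, h1⟩, rfl⟩ := hvA
  obtain ⟨h5, h6⟩ := H.p1 _ (harc _ (hsabs τ h0 h1)) hvK hvL
  by_cases h2 : τ = 0
  · simp only [h2, mul_zero, Wd_zero] at h5 h6
    exact hpab ⟨h5, h6⟩
  · exact (hpt τ h0 h1 h2).1 (h.sub _ h5)

/-- **the chord through `p` is free of exactly one of the colours `a`, `b`** -/
theorem chord_xor (h : Irr U T) {z p : ℂ} {r η α₀ : ℝ} {a b : Fin k} {K L : Set (Fin k)}
    (H : Loc U T z r a b K L) (hη : 0 < η) (hη1 : η < 1)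
    (harc : ∀ τ, |τ| ≤ η → Wd p α₀ τ ∈ closedBall z r)
    (he1 : ¬ (T (Wd p α₀ η) ∩ K).Nonempty) (he2 : ¬ (T (Wd p α₀ (-η)) ∩ K).Nonempty)
    (hw : T (p + cis α₀) ⊆ {a, b})
    (hpK : (T p ∩ K).Nonempty) (hpab : ¬ (a ∈ T p ∧ b ∈ T p)) :
    (p + cis α₀ ∈ Fr U z r a ∨ p + cis α₀ ∈ Fr U z r b) ∧
      ¬ (p + cis α₀ ∈ Fr U z r a ∧ p + cis α₀ ∈ Fr U z r b) := by
  constructor
  · by_contra hcon
    rw [not_or] at hcon
    obtain ⟨ha, hb⟩ := hcon
    have ha' : ¬ ∀ v ∈ closedBall z r, dist v (p + cis α₀) = 1 → a ∉ Pal U v := ha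
    have hb' : ¬ ∀ v ∈ closedBall z r, dist v (p + cis α₀) = 1 → b ∉ Pal U v := hb
    push Not at ha' hb'
    obtain ⟨v1, hv1, hd1, hi1⟩ := ha'
    obtain ⟨v2, hv2, hd2, hi2⟩ := hb'
    have hpz : p ∈ closedBall z r := by
      have := harc 0 (by rw [abs_zero]; exact hη.le)
      rwa [Wd_zero] at this
    -- partners are unique
    have huniq : ∀ v ∈ closedBall z r, ∀ v' ∈ closedBall z r, dist v (p + cis α₀) = 1 →
        dist v' (p + cis α₀) = 1 → a ∈ Pal U v → b ∈ Pal U v' → v' = v := by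
      intro v hv v' hv' hd hd' hi hi'
      rcases h.lemmaB hw (by rw [dist_comm]; exact hd) (by rw [dist_comm]; exact hd') hi hi' with h1 | h1
      · exact h1
      · exfalso
        have h2 : (2 : ℂ) * cis α₀ = (v' - z) + (v - z) - 2 * (p - z) := by linear_combination -h1
        have h3 : ‖(2 : ℂ) * cis α₀‖ = 2 := by rw [norm_mul, norm_cis]; simp
        have n1 : ‖v' - z‖ ≤ r := by rw [← dist_eq_norm]; exact hv'
        have n2 : ‖v - z‖ ≤ r := by rw [← dist_eq_norm]; exact hv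
        have n3 : ‖p - z‖ ≤ r := by rw [← dist_eq_norm]; exact hpz
        have n4 : ‖(v' - z) + (v - z) - 2 * (p - z)‖ ≤ ‖v' - z‖ + ‖v - z‖ + 2 * ‖p - z‖ := by
          refine (norm_sub_le _ _).trans (add_le_add (norm_add_le _ _) ?_)
          rw [norm_mul]; simp
        rw [← h2, h3] at n4
        have := H.rlt
        linarith
    have h12 : v2 = v1 := huniq v1 hv1 v2 hv2 hd1 hd2 hi1 hi2
    refine chord_contra (f := v1) h H hη hη1 harc he1 he2 hpK hpab fun v hv hd hne => ⟨fun hi => ?_, fun hi => ?_⟩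
    · exact hne ((huniq v hv v2 hv2 hd hd2 hi hi2).symm.trans h12)
    · exact hne (huniq v1 hv1 v hv hd1 hd hi1 hi)
  · rintro ⟨ha, hb⟩
    exact chord_contra (f := z) h H hη hη1 harc he1 he2 hpK hpab fun v hv hd _ => ⟨ha v hv hd, hb v hv hd⟩


theorem cis_add_pi (s : ℝ) : cis (s + Real.pi) = -cis s := by
  unfold cis
  push_cast
  rw [add_mul, Complex.exp_add, Complex.exp_pi_mul_I]
  ring

theorem Wd_shift (z p : ℂ) (α τ : ℝ) : Wd p α τ = Wd z α τ + (p - z) := by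
  unfold Wd; ring

theorem tendsto_circ (z : ℂ) (α₀ : ℝ) :
    Tendsto (fun α : ℝ => z + cis α) (𝓝 α₀) (𝓝[sphere z 1] (z + cis α₀)) := by
  refine tendsto_nhdsWithin_iff.2 ⟨?_, Eventually.of_forall fun α => dist_add_cis z α⟩
  exact (continuous_const.add continuous_cis).tendsto α₀

/-- a direction near `α₀` not on the line through `y` -/
theorem exists_alpha (z y : ℂ) (α₀ : ℝ) {ε : ℝ} (hε : 0 < ε) :
    ∃ α, |α - α₀| < ε ∧ z + cis α ≠ y ∧ z + cis α + y ≠ 2 * z := by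
  by_contra hcon
  push Not at hcon
  set m := min ε 1 with hm
  have hm0 : 0 < m := lt_min hε one_pos
  have hm1 : m ≤ 1 := min_le_right _ _
  have hgood : ∀ j : ℝ, 0 < j → j < 1 → |α₀ + j * m - α₀| < ε := by
    intro j hj0 hj1
    rw [add_sub_cancel_left, abs_of_pos (by positivity)]
    have := min_le_left ε 1
    nlinarith
  have key : ∀ j : ℝ, 0 < j → j < 1 → cis (α₀ + j * m) = y - z ∨ cis (α₀ + j * m) = z - y := by
    intro j h0 h1
    by_cases h : z + cis (α₀ + j * m) = y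
    · left; rw [← h]; ring
    · right
      have := hcon _ (hgood j h0 h1) h
      linear_combination this
  have hne : ∀ i j : ℝ, 0 < i → i < 1 → 0 < j → j < 1 → i ≠ j →
      cis (α₀ + i * m) ≠ cis (α₀ + j * m) := by
    intro i j hi0 hi1 hj0 hj1 hij h
    have := cis_inj (by
      rw [abs_lt]; constructor <;> nlinarith) h
    exact hij (mul_right_cancel₀ hm0.ne' (by linarith))
  have k1 := key (1/4) (by norm_num) (by norm_num)
  have k2 := key (1/2) (by norm_num) (by norm_num)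
  have k3 := key (3/4) (by norm_num) (by norm_num)
  have n12 := hne (1/4) (1/2) (by norm_num) (by norm_num) (by norm_num) (by norm_num)
    (by norm_num)
  have n13 := hne (1/4) (3/4) (by norm_num) (by norm_num) (by norm_num) (by norm_num)
    (by norm_num)
  have n23 := hne (1/2) (3/4) (by norm_num) (by norm_num) (by norm_num) (by norm_num)
    (by norm_num)
  rcases k1 with k1 | k1 <;> rcases k2 with k2 | k2 <;> rcases k3 with k3 | k3
  all_goals first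
    | exact n12 (k1.trans k2.symm)
    | exact n13 (k1.trans k3.symm)
    | exact n23 (k2.trans k3.symm)

/-- for `g` near `y`, `|z - y| = 1`, the unit circle about `g` contains near `z` a point of a thin wedge, or `z` -/
theorem cross_wd {z y : ℂ} (hzy : dist z y = 1) (α₀ : ℝ) {ε η : ℝ} (hε : 0 < ε) (hη : 0 < η) {N : Set ℂ}
    (hN : N ∈ 𝓝 z) : ∀ᶠ g in 𝓝 y, ∃ w ∈ N, dist w g = 1 ∧
      (w = z ∨ ∃ α τ, |α - α₀| < ε ∧ 0 < |τ| ∧ |τ| < η ∧ w = Wd z α τ) := by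
  obtain ⟨α, hα, hqy, hqy2⟩ := exists_alpha z y α₀ hε
  set q := z + cis α with hq
  have hqz : dist q z = 1 := dist_add_cis z α
  have hzq : dist z q = 1 := by rw [dist_comm]; exact hqz
  have hzθ : q + cis (α + Real.pi) = z := by rw [cis_add_pi, hq]; ring
  have hθ : cis (α + Real.pi) = z - q := by rw [← hzθ]; ring
  have hc : ContinuousAt (fun t => q + cis t) (α + Real.pi) :=
    (continuous_const.add continuous_cis).continuousAt
  have hpre : (fun t => q + cis t) ⁻¹' N ∈ 𝓝 (α + Real.pi) :=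
    hc.preimage_mem_nhds (by simp only [hzθ]; exact hN)
  obtain ⟨η0, hη0, hball⟩ := Metric.mem_nhds_iff.1 hpre
  have hcr : cr (cis (α + Real.pi)) (q + cis (α + Real.pi) - y) ≠ 0 := by
    rw [hzθ, hθ]
    exact cr_ne hzq hzy hqy hqy2
  have hcross := crossing (c := q) (q₀ := y) (t0 := α + Real.pi) (by rw [hzθ]; exact hzy) hcr
    (lt_min hη hη0)
  filter_upwards [hcross] with g hg
  obtain ⟨t, ht, hgt⟩ := hg
  refine ⟨q + cis t, hball (by
    rw [mem_ball, Real.dist_eq]; exact lt_of_lt_of_le ht (min_le_right _ _)), hgt, ?_⟩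
  by_cases h0 : t = α + Real.pi
  · left
    rw [h0]; exact hzθ
  · right
    refine ⟨α, t - (α + Real.pi), hα, abs_pos.2 (sub_ne_zero.2 h0), lt_of_lt_of_le ht (min_le_left _ _), ?_⟩
    have h1 : cis t = -cis (α + (t - (α + Real.pi))) := by
      rw [← cis_add_pi]; congr 1; ring
    rw [h1, Wd, hq]; ring

/-- the data at `z` -/
structure Arc (U : Fin k → Set ℂ) (T : ℂ → Set (Fin k)) (z : ℂ) (α₀ : ℝ) (a b : Fin k) (K L : Set (Fin k)) :
    Prop where
  arc : ∀ᶠ q in 𝓝[sphere z 1] (z + cis α₀), T q = {a, b}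
  sub : ∀ i ∈ T z, i = a ∨ i = b ∨ i ∈ K ∨ i ∈ L
  p1 : ∀ᶠ v in 𝓝 z, (T v ∩ K).Nonempty → (T v ∩ L).Nonempty → a ∈ T v ∧ b ∈ T v
  ha : a ∈ T z
  hb : b ∈ T z
  aK : a ∉ K
  bK : b ∉ K
  aL : a ∉ L
  bL : b ∉ L

theorem Arc.swap {z : ℂ} {α₀ : ℝ} {a b : Fin k} {K L : Set (Fin k)} (A : Arc U T z α₀ a b K L) :
    Arc U T z α₀ b a K L where
  arc := by
    filter_upwards [A.arc] with q hq
    rw [hq, Set.pair_comm]
  sub := fun i hi => by
    rcases A.sub i hi with h | h | h | h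
    · exact Or.inr (Or.inl h)
    · exact Or.inl h
    · exact Or.inr (Or.inr (Or.inl h))
    · exact Or.inr (Or.inr (Or.inr h))
  p1 := by
    filter_upwards [A.p1] with v hv h1 h2
    exact (hv h1 h2).symm
  ha := A.hb
  hb := A.ha
  aK := A.bK
  bK := A.aK
  aL := A.bL
  bL := A.aL

theorem Arc.swapKL {z : ℂ} {α₀ : ℝ} {a b : Fin k} {K L : Set (Fin k)} (A : Arc U T z α₀ a b K L) :
    Arc U T z α₀ a b L K where
  arc := A.arc
  sub := fun i hi => by
    rcases A.sub i hi with h | h | h | h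
    · exact Or.inl h
    · exact Or.inr (Or.inl h)
    · exact Or.inr (Or.inr (Or.inr h))
    · exact Or.inr (Or.inr (Or.inl h))
  p1 := by
    filter_upwards [A.p1] with v hv h1 h2
    exact hv h2 h1
  ha := A.ha
  hb := A.hb
  aK := A.aL
  bK := A.bL
  aL := A.aK
  bL := A.bK

/-- the arc on an interval of directions, with the wedges free of `a`, `b` -/
theorem Arc.off (h : Irr U T) {z : ℂ} {α₀ : ℝ} {a b : Fin k} {K L : Set (Fin k)}
    (A : Arc U T z α₀ a b K L) : ∃ ε > 0, ∀ α, |α - α₀| < ε → ∀ τ, 0 < |τ| → |τ| < 1 →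
      a ∉ Pal U (Wd z α τ) ∧ b ∉ Pal U (Wd z α τ) := by
  have h1 : ∀ᶠ q in 𝓝[sphere z 1] (z + cis α₀), ∀ᶠ q' in 𝓝[sphere z 1] q, T q' = {a, b} :=
    eventually_eventually_nhdsWithin.2 A.arc
  obtain ⟨ε, hε, hb⟩ := Metric.eventually_nhds_iff.1 ((tendsto_circ z α₀).eventually h1)
  refine ⟨ε, hε, fun α hα τ h0 hτ => ?_⟩
  have h2 : ∀ᶠ q' in 𝓝[sphere z 1] (z + cis α), ({a, b} : Set (Fin k)) ⊆ Pal U q' := by
    filter_upwards [hb (y := α) (by rw [Real.dist_eq]; exact hα)] with q' hq'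
    rw [← hq']; exact h.sub q'
  have hne : z ≠ Wd z α τ := by
    intro hcon
    have h3 : Wd z α 0 = Wd z α τ := by
      rw [Wd_zero]; exact hcon
    have h4 := Wd_inj (by rw [zero_sub, abs_neg]; linarith) h3
    rw [← h4, abs_zero] at h0
    exact lt_irrefl _ h0
  have hne2 : z + Wd z α τ ≠ 2 * (z + cis α) := by
    intro hcon
    have h3 : cis (α + τ + Real.pi) = cis α := by
      rw [cis_add_pi]
      unfold Wd at hcon
      linear_combination hcon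
    have hpi := Real.pi_gt_three
    have hpi4 := Real.pi_lt_four
    rw [abs_lt] at hτ
    have h4 := cis_inj (by rw [abs_lt]; constructor <;> linarith) h3
    linarith
  exact ⟨h.mx.sweep_notMem (dist_add_cis z α) h2 (dist_Wd z α τ) hne hne2 (by simp),
    h.mx.sweep_notMem (dist_add_cis z α) h2 (dist_Wd z α τ) hne hne2 (by simp)⟩


theorem tendsto_Wd (z : ℂ) (α₀ : ℝ) (τ : ℝ) : Tendsto (fun p : ℂ => Wd p α₀ τ) (𝓝 z) (𝓝 (Wd z α₀ τ)) := by
  have h1 : Continuous fun p : ℂ => Wd p α₀ τ := by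
    unfold Wd; fun_prop
  exact h1.tendsto z

/-- near `z` the chord `S(p + cis α₀)` is free of exactly one of `a`, `b`, if `p` has a colour of `K` -/
theorem Arc.ev_xor (h : Irr U T) {z : ℂ} {α₀ : ℝ} {a b : Fin k} {K L : Set (Fin k)}
    (A : Arc U T z α₀ a b K L) {η : ℝ} (hη : 0 < η)
    (hW : ∀ τ, 0 < |τ| → |τ| < η → ¬ (T (Wd z α₀ τ) ∩ K).Nonempty) :
    ∃ r > 0, Loc U T z r a b K L ∧ ∀ᶠ p in 𝓝 z, (T p ∩ K).Nonempty → ¬ (a ∈ T p ∧ b ∈ T p) →
      (p + cis α₀ ∈ Fr U z r a ∨ p + cis α₀ ∈ Fr U z r b) ∧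
      ¬ (p + cis α₀ ∈ Fr U z r a ∧ p + cis α₀ ∈ Fr U z r b) := by
  obtain ⟨r0, hr0, hb0⟩ := Metric.eventually_nhds_iff.1 (A.p1.and (h.nhd z))
  set r := min (r0 / 2) (1 / 4) with hr
  have hrpos : 0 < r := lt_min (by positivity) (by norm_num)
  have hr1 : r < r0 := lt_of_le_of_lt (min_le_left _ _) (by linarith)
  have hr2 : r < 1 / 2 := lt_of_le_of_lt (min_le_right _ _) (by norm_num)
  have H : Loc U T z r a b K L :=
    { rlt := hr2
      tsub := fun v hv i hi => A.sub i ((hb0 (lt_of_le_of_lt hv hr1)).2 hi)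
      p1 := fun v hv => (hb0 (lt_of_le_of_lt hv hr1)).1 }
  refine ⟨r, hrpos, H, ?_⟩
  -- a short arc
  have hc : ContinuousAt (fun τ : ℝ => Wd z α₀ τ) 0 := by
    have h1 := continuous_cis
    have h2 : Continuous fun τ : ℝ => Wd z α₀ τ := by
      unfold Wd; fun_prop
    exact h2.continuousAt
  obtain ⟨η0, hη0, hη1⟩ := Metric.continuousAt_iff.1 hc (r / 2) (by positivity)
  set η' := min (η / 2) (min (η0 / 2) (1 / 2)) with hη'
  have e0 : 0 < η' := lt_min (by positivity) (lt_min (by positivity) (by norm_num))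
  have e1 : η' < η := lt_of_le_of_lt (min_le_left _ _) (by linarith)
  have e2 : η' < η0 := lt_of_le_of_lt ((min_le_right _ _).trans (min_le_left _ _)) (by linarith)
  have e3 : η' < 1 := lt_of_le_of_lt ((min_le_right _ _).trans (min_le_right _ _)) (by norm_num)
  have hT0 : T (z + cis α₀) = {a, b} := A.arc.self_of_nhdsWithin (dist_add_cis z α₀)
  have g1 : ∀ᶠ p in 𝓝 z, T (p + cis α₀) ⊆ T (z + cis α₀) := by
    have h1 : Tendsto (fun p : ℂ => p + cis α₀) (𝓝 z) (𝓝 (z + cis α₀)) :=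
      (continuous_id.add continuous_const).tendsto z
    exact h1.eventually (h.nhd _)
  have g2 : ∀ᶠ p in 𝓝 z, T (Wd p α₀ η') ⊆ T (Wd z α₀ η') := (tendsto_Wd z α₀ η').eventually (h.nhd _)
  have g3 : ∀ᶠ p in 𝓝 z, T (Wd p α₀ (-η')) ⊆ T (Wd z α₀ (-η')) :=
    (tendsto_Wd z α₀ (-η')).eventually (h.nhd _)
  have g4 : ∀ᶠ p in 𝓝 z, dist p z < r / 2 := ball_mem_nhds z (by positivity)
  filter_upwards [g1, g2, g3, g4] with p h1 h2 h3 h4 hpK hpab
  refine chord_xor h H e0 e3 (fun τ hτ => ?_) (fun hcon => ?_) (fun hcon => ?_) (by rw [← hT0]; exact h1) hpK hpab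
  · have h5 := hη1 (x := τ) (by rw [Real.dist_eq, sub_zero]; exact lt_of_le_of_lt hτ e2)
    simp only [Wd_zero] at h5
    rw [mem_closedBall, Wd_shift z p, dist_eq_norm]
    have h6 : Wd z α₀ τ + (p - z) - z = (Wd z α₀ τ - z) + (p - z) := by ring
    rw [h6]
    refine (norm_add_le _ _).trans ?_
    rw [← dist_eq_norm, ← dist_eq_norm]
    linarith
  · refine hW η' (by rw [abs_of_pos e0]; exact e0) (by rw [abs_of_pos e0]; exact e1) ?_
    exact hcon.mono (inter_subset_inter_left _ h2)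
  · refine hW (-η') (by rw [abs_neg, abs_of_pos e0]; exact e0) (by rw [abs_neg, abs_of_pos e0]; exact e1) ?_
    exact hcon.mono (inter_subset_inter_left _ h3)

/-- a point with a colour of `K` whose chord is free of `a` has no point of `U b` at distance one -/
theorem Arc.absorb_aux (h : Irr U T) {z : ℂ} {α₀ : ℝ} {a b : Fin k} {K L : Set (Fin k)}
    (A : Arc U T z α₀ a b K L) {r : ℝ} (hr : 0 < r) (H : Loc U T z r a b K L)
    (hxor : ∀ᶠ p in 𝓝 z, (T p ∩ K).Nonempty → ¬ (a ∈ T p ∧ b ∈ T p) →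
      (p + cis α₀ ∈ Fr U z r a ∨ p + cis α₀ ∈ Fr U z r b) ∧
      ¬ (p + cis α₀ ∈ Fr U z r a ∧ p + cis α₀ ∈ Fr U z r b)) {ε η : ℝ} (hε : 0 < ε) (hη : 0 < η)
    (hW : ∀ α, |α - α₀| < ε → ∀ τ, 0 < |τ| → |τ| < η → ¬ (T (Wd z α τ) ∩ K).Nonempty) :
    ∀ᶠ x in 𝓝 z, (T x ∩ K).Nonempty → x + cis α₀ ∈ Fr U z r a → ∀ g, dist x g = 1 → g ∉ U b := by
  obtain ⟨r1, hr1, hx1⟩ := Metric.eventually_nhds_iff.1 hxor
  set ρ := min r1 r with hρ
  have hρ0 : 0 < ρ := lt_min hr1 hr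
  let S : Set (ℂ × ℂ) := {x | dist x.1 x.2 = 1 → x.2 ∈ U b → (T x.1 ∩ K).Nonempty →
    x.1 + cis α₀ ∈ Fr U z r a → False}
  have key : ∀ y ∈ sphere z 1, S ∈ 𝓝 z ×ˢ 𝓝 y := by
    intro y hy
    have hzy : dist z y = 1 := by rw [dist_comm]; exact hy
    obtain ⟨δ, hδ, hjoin⟩ := circle_join hzy hρ0
    have hcr := cross_wd hzy α₀ hε hη (ball_mem_nhds z hδ)
    have e1 : ball z δ ∈ 𝓝 z := ball_mem_nhds z hδ
    refine mem_of_superset (prod_mem_prod e1 (inter_mem (ball_mem_nhds y hδ) hcr)) ?_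
    rintro ⟨x1, g⟩ ⟨hx1z, hgy, hg⟩
    obtain ⟨w2, hw2, hw2g, hw2'⟩ := hg
    intro hd hgU hK hF
    simp only at hx1z hgy hd hgU hK hF
    have hw2K : ¬ (T w2 ∩ K).Nonempty := by
      rcases hw2' with rfl | ⟨α, τ, h1, h2, h3, rfl⟩
      · exact absurd (h.sub _ A.hb) (h.mx.notMem' hgU (by rw [dist_comm]; exact hw2g))
      · exact hW α h1 τ h2 h3
    obtain ⟨C, hC, hx1C, hw2C, hCx⟩ := hjoin g x1 w2 hgy hx1z hw2 hd hw2g
    -- facts along the connected set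
    have hb' : ∀ v ∈ C, b ∉ Pal U v := fun v hv =>
      h.mx.notMem' hgU (by rw [dist_comm]; exact (hCx v hv).1)
    have hball : ∀ v ∈ C, v ∈ closedBall z r := fun v hv =>
      (mem_closedBall.2 ((hCx v hv).2.le.trans (min_le_right _ _)))
    have hxorC : ∀ v ∈ C, (T v ∩ K).Nonempty → (v + cis α₀ ∈ Fr U z r a ∨ v + cis α₀ ∈ Fr U z r b) ∧
        ¬ (v + cis α₀ ∈ Fr U z r a ∧ v + cis α₀ ∈ Fr U z r b) := fun v hv hvK =>
      hx1 (lt_of_lt_of_le (hCx v hv).2 (min_le_left _ _)) hvK fun hab => hb' v hv (h.sub v hab.2)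
    have hFa : ∀ v ∈ C, v + cis α₀ ∈ Fr U z r a → a ∉ T v := fun v hv hF' ha =>
      hF' v (hball v hv) (by rw [dist_eq_norm, sub_add_cancel_left, norm_neg, norm_cis]) (h.sub v ha)
    have hL : ∀ v ∈ C, (T v ∩ K).Nonempty → ¬ (T v ∩ L).Nonempty := fun v hv hvK hvL =>
      hb' v hv (h.sub v (H.p1 v (hball v hv) hvK hvL).2)
    -- the two open sets
    have hcts : Continuous fun v : ℂ => v + cis α₀ := continuous_id.add continuous_const
    have hO1 : IsOpen ({v : ℂ | v + cis α₀ ∈ Fr U z r a} ∩ ({v | (T v ∩ L).Nonempty}ᶜ ∩ {v | a ∈ T v}ᶜ)) :=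
      ((isOpen_Fr z r a).preimage hcts).inter
        ((isClosed_meet h L).isOpen_compl.inter (h.closed a).isOpen_compl)
    have hO2 : IsOpen ({v : ℂ | (T v ∩ K).Nonempty}ᶜ ∪ {v : ℂ | v + cis α₀ ∈ Fr U z r b}) :=
      (isClosed_meet h K).isOpen_compl.union ((isOpen_Fr z r b).preimage hcts)
    obtain ⟨v, hvC, hv1, hv2⟩ := hC _ _ hO1 hO2 (fun v hv => by
      by_cases hvK : (T v ∩ K).Nonempty
      · rcases (hxorC v hv hvK).1 with h1 | h1
        · exact Or.inl ⟨h1, hL v hv hvK, hFa v hv h1⟩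
        · exact Or.inr (Or.inr h1)
      · exact Or.inr (Or.inl hvK))
      ⟨x1, hx1C, hF, hL x1 hx1C hK, hFa x1 hx1C hF⟩ ⟨w2, hw2C, Or.inl hw2K⟩
    obtain ⟨h1, h2, h3⟩ := hv1
    have hvK : (T v ∩ K).Nonempty := by
      obtain ⟨i, hi⟩ := h.ne v
      rcases H.tsub v (hball v hvC) i hi with rfl | rfl | h4 | h4
      · exact absurd hi h3
      · exact absurd (h.sub v hi) (hb' v hvC)
      · exact ⟨i, hi, h4⟩
      · exact absurd ⟨i, hi, h4⟩ h2
    rcases hv2 with h4 | h4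
    · exact h4 hvK
    · exact (hxorC v hvC hvK).2 ⟨h1, h4⟩
  have hall : S ∈ 𝓝 z ×ˢ 𝓝ˢ (sphere z 1) :=
    (isCompact_sphere z 1).mem_prod_nhdsSet_of_forall key
  obtain ⟨V1, hV1, V2, hV2, hVS⟩ := mem_prod_iff.1 hall
  obtain ⟨O, hO, hSO, hOV⟩ := mem_nhdsSet_iff_exists.1 hV2
  obtain ⟨δ, hδ, hδO⟩ := (isCompact_sphere z 1).exists_thickening_subset_open hO hSO
  filter_upwards [hV1, ball_mem_nhds z hδ] with w hw1 hw2 hK hF g hg hgU
  have hgO : g ∈ V2 := by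
    refine hOV (hδO (mem_thickening_iff.2 ⟨g - w + z, ?_, ?_⟩))
    · rw [mem_sphere, dist_eq_norm, add_sub_cancel_right, ← dist_eq_norm, dist_comm]
      exact hg
    · rw [dist_eq_norm]
      have e : g - (g - w + z) = w - z := by ring
      rw [e, ← dist_eq_norm]
      exact hw2
  exact hVS (mk_mem_prod hw1 hgO) hg hgU hK hF


theorem Loc.swap {z : ℂ} {r : ℝ} {a b : Fin k} {K L : Set (Fin k)} (H : Loc U T z r a b K L) :
    Loc U T z r b a K L where
  rlt := H.rlt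
  tsub := fun v hv i hi => by
    rcases H.tsub v hv i hi with h | h | h | h
    · exact Or.inr (Or.inl h)
    · exact Or.inl h
    · exact Or.inr (Or.inr (Or.inl h))
    · exact Or.inr (Or.inr (Or.inr h))
  p1 := fun v hv h1 h2 => (H.p1 v hv h1 h2).symm

/-- a point near which no point sees `U b` is in `U b` -/
theorem mem_of_ev (h : Irr U T) {x : ℂ} {b : Fin k} (hw : ∀ᶠ w in 𝓝 x, ∀ g, dist w g = 1 → g ∉ U b) :
    x ∈ U b := by
  refine h.max b x fun y hy hxy => ?_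
  have ht : Tendsto (fun g => x + (g - y)) (𝓝 y) (𝓝 x) := by
    have hc : Continuous fun g : ℂ => x + (g - y) := by fun_prop
    have := hc.tendsto y
    simpa using this
  obtain ⟨g, hgU, hg⟩ := ((mem_closure_iff_frequently.1 hy).and_eventually
    (ht.eventually hw)).exists
  refine hg g ?_ hgU
  rw [dist_eq_norm] at hxy ⊢
  rw [← hxy]
  congr 1
  ring

/-- **Absorption.** If both thin wedges orthogonal to the exact arc `{a, b}` have no colour of `K`, then near `z`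
the points with palette inside `K` are in `U a` or in `U b`. -/
theorem Arc.absorb (h : Irr U T) {z : ℂ} {α₀ : ℝ} {a b : Fin k} {K L : Set (Fin k)}
    (A : Arc U T z α₀ a b K L) {ε η : ℝ} (hε : 0 < ε) (hη : 0 < η)
    (hW : ∀ α, |α - α₀| < ε → ∀ τ, 0 < |τ| → |τ| < η → ¬ (T (Wd z α τ) ∩ K).Nonempty) :
    ∀ᶠ x in 𝓝 z, T x ⊆ K → x ∈ U a ∨ x ∈ U b := by
  obtain ⟨r, hr, H, hx⟩ := A.ev_xor h hη (hW α₀ (by rw [sub_self, abs_zero]; exact hε))
  have h1 := A.absorb_aux h hr H hx hε hη hW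
  have h2 := A.swap.absorb_aux h hr H.swap (by
    filter_upwards [hx] with p hp hpK hpab
    obtain ⟨h3, h4⟩ := hp hpK fun h5 => hpab h5.symm
    exact ⟨h3.symm, fun h5 => h4 h5.symm⟩) hε hη hW
  filter_upwards [hx, h1.eventually_nhds, h2.eventually_nhds] with x hx hx1 hx2 hxK
  have hne : ∀ v, T v ⊆ T x → (T v ∩ K).Nonempty := fun v hv => by
    obtain ⟨i, hi⟩ := h.ne v
    exact ⟨i, hi, hxK (hv hi)⟩
  have hcts : Continuous fun v : ℂ => v + cis α₀ := continuous_id.add continuous_const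
  rcases (hx (hne x Subset.rfl) fun h5 => A.aK (hxK h5.1)).1 with hF | hF
  · right
    refine mem_of_ev h ?_
    filter_upwards [hx1, h.nhd x, ((isOpen_Fr z r a).preimage hcts).mem_nhds hF] with w h3 h4 h5
    exact h3 (hne w h4) h5
  · left
    refine mem_of_ev h ?_
    filter_upwards [hx2, h.nhd x, ((isOpen_Fr z r b).preimage hcts).mem_nhds hF] with w h3 h4 h5
    exact h3 (hne w h4) h5

/-- absorption contradicts minimality -/
theorem Arc.not_absorb (h : Irr U T)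
    (hmin : ∀ z, 4 ≤ (T z).ncard → ∀ s, s ⊆ T z → s ≠ T z →
      ¬ ∀ᶠ w in 𝓝 z, ∃ i ∈ s, w ∈ U i ∨ (w ∈ XX U ∧ i ∈ Pal U w))
    {z : ℂ} (h4 : 4 ≤ (T z).ncard) {α₀ : ℝ} {a b : Fin k} {K L : Set (Fin k)}
    (A : Arc U T z α₀ a b K L) (hK : (T z ∩ K).Nonempty) {ε η : ℝ} (hε : 0 < ε) (hη : 0 < η)
    (hW : ∀ α, |α - α₀| < ε → ∀ τ, 0 < |τ| → |τ| < η → ¬ (T (Wd z α τ) ∩ K).Nonempty) : False := by
  refine hmin z h4 (T z \ K) sdiff_subset (fun h5 => ?_) ?_
  · obtain ⟨i, hi, hiK⟩ := hK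
    have h6 : i ∈ T z \ K := by rw [h5]; exact hi
    exact h6.2 hiK
  · filter_upwards [h.nhd z, A.absorb h hε hη hW] with w h1 h2
    by_cases hw : T w ⊆ K
    · rcases h2 hw with h3 | h3
      · exact ⟨a, ⟨A.ha, A.aK⟩, Or.inl h3⟩
      · exact ⟨b, ⟨A.hb, A.bK⟩, Or.inl h3⟩
    · obtain ⟨i, hi, hiK⟩ := not_subset.1 hw
      exact ⟨i, ⟨h1 hi, hiK⟩, h.suf_mem hi⟩

/-- the two thin wedges -/
theorem Arc.side (h : Irr U T) {z : ℂ} {α₀ : ℝ} {a b : Fin k} {K L : Set (Fin k)}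
    (A : Arc U T z α₀ a b K L) : ∃ ε > 0, ∀ s : ℝ, s = 1 ∨ s = -1 →
      (∀ α, |α - α₀| < ε → ∀ τ, 0 < τ → τ < ε → T (Wd z α (s * τ)) ⊆ K) ∨
      (∀ α, |α - α₀| < ε → ∀ τ, 0 < τ → τ < ε → T (Wd z α (s * τ)) ⊆ L) := by
  obtain ⟨ε1, hε1, hoff⟩ := A.off h
  have hc : ContinuousAt (fun x : ℝ × ℝ => Wd z x.1 x.2) (α₀, 0) := by
    have h1 := continuous_cis
    have h2 : Continuous fun x : ℝ × ℝ => Wd z x.1 x.2 := by
      unfold Wd; fun_prop
    exact h2.continuousAt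
  have hN : {v | T v ⊆ T z ∧ ((T v ∩ K).Nonempty → (T v ∩ L).Nonempty → a ∈ T v ∧ b ∈ T v)} ∈ 𝓝 z :=
    (h.nhd z).and A.p1
  have hpre := hc.preimage_mem_nhds (t := {v | T v ⊆ T z ∧ ((T v ∩ K).Nonempty → (T v ∩ L).Nonempty →
    a ∈ T v ∧ b ∈ T v)}) (by simp only [Wd_zero]; exact hN)
  obtain ⟨ε2, hε2, hball⟩ := Metric.mem_nhds_iff.1 hpre
  set ε := min ε1 (min ε2 1) with hε
  have e0 : 0 < ε := lt_min hε1 (lt_min hε2 one_pos)
  have e1 : ε ≤ ε1 := min_le_left _ _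
  have e2 : ε ≤ ε2 := (min_le_right _ _).trans (min_le_left _ _)
  have e3 : ε ≤ 1 := (min_le_right _ _).trans (min_le_right _ _)
  refine ⟨ε, e0, fun s hs => ?_⟩
  have hsabs : ∀ τ : ℝ, 0 < τ → |s * τ| = τ := by
    intro τ h0
    rcases hs with rfl | rfl
    · rw [one_mul, abs_of_pos h0]
    · rw [neg_one_mul, abs_neg, abs_of_pos h0]
  -- palettes in the wedge
  have hpt : ∀ α, |α - α₀| < ε → ∀ τ, 0 < τ → τ < ε →
      (∀ i ∈ T (Wd z α (s * τ)), i ∈ K ∨ i ∈ L) ∧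
      ¬ ((T (Wd z α (s * τ)) ∩ K).Nonempty ∧ (T (Wd z α (s * τ)) ∩ L).Nonempty) := by
    intro α hα τ h0 hτ
    obtain ⟨h1, h2⟩ := hoff α (lt_of_lt_of_le hα e1) (s * τ) (by rw [hsabs τ h0]; exact h0)
      (by rw [hsabs τ h0]; exact lt_of_lt_of_le hτ e3)
    have h3 : Wd z α (s * τ) ∈ {v | T v ⊆ T z ∧ ((T v ∩ K).Nonempty → (T v ∩ L).Nonempty →
        a ∈ T v ∧ b ∈ T v)} := hball (a := (α, s * τ)) (by
      rw [mem_ball, Prod.dist_eq, max_lt_iff]
      refine ⟨by rw [Real.dist_eq]; exact lt_of_lt_of_le hα e2, ?_⟩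
      rw [Real.dist_eq, sub_zero, hsabs τ h0]
      exact lt_of_lt_of_le hτ e2)
    refine ⟨fun i hi => ?_, fun h4 => h1 (h.sub _ (h3.2 h4.1 h4.2).1)⟩
    rcases A.sub i (h3.1 hi) with rfl | rfl | h5 | h5
    · exact absurd (h.sub _ hi) h1
    · exact absurd (h.sub _ hi) h2
    · exact Or.inl h5
    · exact Or.inr h5
  have hcont : Continuous fun x : ℝ × ℝ => Wd z x.1 (s * x.2) := by
    have h1 := continuous_cis
    unfold Wd; fun_prop
  have hD : IsPreconnected ((fun x : ℝ × ℝ => Wd z x.1 (s * x.2)) ''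
      (Ioo (α₀ - ε) (α₀ + ε) ×ˢ Ioo 0 ε)) :=
    (isPreconnected_Ioo.prod isPreconnected_Ioo).image _ hcont.continuousOn
  have hmem : ∀ α : ℝ, α ∈ Ioo (α₀ - ε) (α₀ + ε) → |α - α₀| < ε := fun α hα => by
    rw [abs_lt]; constructor <;> linarith [hα.1, hα.2]
  have hmem' : ∀ α : ℝ, |α - α₀| < ε → α ∈ Ioo (α₀ - ε) (α₀ + ε) := fun α hα => by
    rw [abs_lt] at hα; constructor <;> linarith [hα.1, hα.2]
  by_contra hcon
  rw [not_or] at hcon
  obtain ⟨hc1, hc2⟩ := hcon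
  push Not at hc1 hc2
  obtain ⟨α1, hα1, τ1, h01, hτ1, hn1⟩ := hc1
  obtain ⟨α2, hα2, τ2, h02, hτ2, hn2⟩ := hc2
  obtain ⟨i1, hi1, hi1K⟩ := not_subset.1 hn1
  obtain ⟨i2, hi2, hi2L⟩ := not_subset.1 hn2
  have hi1L : i1 ∈ L := ((hpt α1 hα1 τ1 h01 hτ1).1 i1 hi1).resolve_left hi1K
  have hi2K : i2 ∈ K := ((hpt α2 hα2 τ2 h02 hτ2).1 i2 hi2).resolve_right hi2L
  obtain ⟨v, hvD, hvK, hvL⟩ := isPreconnected_closed_iff.1 hD {v | (T v ∩ K).Nonempty}
    {v | (T v ∩ L).Nonempty} (isClosed_meet h K) (isClosed_meet h L)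
    (by
      rintro _ ⟨⟨α, τ⟩, ⟨h1, h2⟩, rfl⟩
      obtain ⟨i, hi⟩ := h.ne (Wd z α (s * τ))
      rcases (hpt α (hmem α h1) τ h2.1 h2.2).1 i hi with h3 | h3
      · exact Or.inl ⟨i, hi, h3⟩
      · exact Or.inr ⟨i, hi, h3⟩)
    ⟨_, ⟨(α2, τ2), ⟨hmem' α2 hα2, h02, hτ2⟩, rfl⟩, i2, hi2, hi2K⟩
    ⟨_, ⟨(α1, τ1), ⟨hmem' α1 hα1, h01, hτ1⟩, rfl⟩, i1, hi1, hi1L⟩
  obtain ⟨⟨α, τ⟩, ⟨h1, h2⟩, rfl⟩ := hvD
  exact (hpt α (hmem α h1) τ h2.1 h2.2).2 ⟨hvK, hvL⟩


/-- **The two rays of an exact arc.**  `K`, `L` disjoint, both with colours of `T z`: one of the two thin wedges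
orthogonal to the exact arc has only colours of `K`, the other one only colours of `L`. -/
theorem Arc.rays (h : Irr U T)
    (hmin : ∀ z, 4 ≤ (T z).ncard → ∀ s, s ⊆ T z → s ≠ T z →
      ¬ ∀ᶠ w in 𝓝 z, ∃ i ∈ s, w ∈ U i ∨ (w ∈ XX U ∧ i ∈ Pal U w))
    {z : ℂ} (h4 : 4 ≤ (T z).ncard) {α₀ : ℝ} {a b : Fin k} {K L : Set (Fin k)}
    (A : Arc U T z α₀ a b K L) (hKL : Disjoint K L) (hK : (T z ∩ K).Nonempty) (hL : (T z ∩ L).Nonempty) :
    ∃ ε > 0, ((∀ α, |α - α₀| < ε → ∀ τ, 0 < τ → τ < ε → T (Wd z α τ) ⊆ K) ∧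
        (∀ α, |α - α₀| < ε → ∀ τ, 0 < τ → τ < ε → T (Wd z α (-τ)) ⊆ L)) ∨
      ((∀ α, |α - α₀| < ε → ∀ τ, 0 < τ → τ < ε → T (Wd z α τ) ⊆ L) ∧
        (∀ α, |α - α₀| < ε → ∀ τ, 0 < τ → τ < ε → T (Wd z α (-τ)) ⊆ K)) := by
  obtain ⟨ε, hε, hside⟩ := A.side h
  have h1 := hside 1 (Or.inl rfl)
  have h2 := hside (-1) (Or.inr rfl)
  simp only [one_mul, neg_one_mul] at h1 h2
  -- both wedges inside `M`: the other set is absorbed
  have key : ∀ M N : Set (Fin k), Arc U T z α₀ a b N M → Disjoint M N → (T z ∩ N).Nonempty →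
      (∀ α, |α - α₀| < ε → ∀ τ, 0 < τ → τ < ε → T (Wd z α τ) ⊆ M) →
      (∀ α, |α - α₀| < ε → ∀ τ, 0 < τ → τ < ε → T (Wd z α (-τ)) ⊆ M) → False := by
    intro M N B hMN hN k1 k2
    refine B.not_absorb h hmin h4 hN hε hε fun α hα τ h0 hτ => ?_
    rintro ⟨i, hi, hiN⟩
    rcases lt_or_gt_of_ne (abs_pos.1 h0) with h5 | h5
    · have h6 := k2 α hα (-τ) (by linarith) (by rwa [abs_of_neg h5] at hτ)
      rw [neg_neg] at h6
      exact disjoint_left.1 hMN (h6 hi) hiN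
    · have h6 := k1 α hα τ h5 (by rwa [abs_of_pos h5] at hτ)
      exact disjoint_left.1 hMN (h6 hi) hiN
  rcases h1 with h1 | h1 <;> rcases h2 with h2 | h2
  · exact (key K L A.swapKL hKL hL h1 h2).elim
  · exact ⟨ε, hε, Or.inl ⟨h1, h2⟩⟩
  · exact ⟨ε, hε, Or.inr ⟨h1, h2⟩⟩
  · exact (key L K A hKL.symm hK h1 h2).elim

/-- **`(P1)`.** If the colour `c` of `z` is exact with all colours of `T z` but `a`, `b`, then near `z` it meets
another colour than `a`, `b` only at points which have both `a` and `b`. -/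
theorem p1_of (h : Irr U T)
    (hmin : ∀ z, 4 ≤ (T z).ncard → ∀ s, s ⊆ T z → s ≠ T z →
      ¬ ∀ᶠ w in 𝓝 z, ∃ i ∈ s, w ∈ U i ∨ (w ∈ XX U ∧ i ∈ Pal U w)) {z : ℂ} {a b c : Fin k}
    (hca : c ≠ a) (hcb : c ≠ b)
    (hex : ∀ j ∈ T z, j ≠ a → j ≠ b → j ≠ c → ∃ q, dist q z = 1 ∧ T q = {c, j}) :
    ∀ᶠ v in 𝓝 z, c ∈ T v → (∃ j ∈ T v, j ≠ a ∧ j ≠ b ∧ j ≠ c) → a ∈ T v ∧ b ∈ T v := by
  have hex' : ∀ j, ∃ q, j ∈ T z → j ≠ a → j ≠ b → j ≠ c → dist q z = 1 ∧ T q = {c, j} := by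
    intro j
    by_cases h1 : j ∈ T z ∧ j ≠ a ∧ j ≠ b ∧ j ≠ c
    · obtain ⟨q, hq⟩ := hex j h1.1 h1.2.1 h1.2.2.1 h1.2.2.2
      exact ⟨q, fun _ _ _ _ => hq⟩
    · exact ⟨0, fun h2 h3 h4 h5 => absurd ⟨h2, h3, h4, h5⟩ h1⟩
  choose q hq using hex'
  have hnear : ∀ᶠ w in 𝓝 z, ∀ j, j ∈ T z → j ≠ a → j ≠ b → j ≠ c →
      T (q j + (w - z)) ⊆ {c, j} ∧ (({c, j} : Set (Fin k)) ⊆ T w → 4 ≤ (T w).ncard) := by
    rw [eventually_all]
    intro j
    by_cases h1 : j ∈ T z ∧ j ≠ a ∧ j ≠ b ∧ j ≠ c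
    · obtain ⟨hq1, hq2⟩ := hq j h1.1 h1.2.1 h1.2.2.1 h1.2.2.2
      have ht : Tendsto (fun w => q j + (w - z)) (𝓝 z) (𝓝 (q j)) := by
        have hc : Continuous fun w : ℂ => q j + (w - z) := by fun_prop
        have := hc.tendsto z
        simpa using this
      filter_upwards [ht.eventually (h.nhd (q j)), h.no_layer hq1] with w h2 h3 _ _ _ _
      rw [hq2] at h2 h3
      exact ⟨h2, h3⟩
    · exact Eventually.of_forall fun w h2 h3 h4 h5 => absurd ⟨h2, h3, h4, h5⟩ h1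
  filter_upwards [h.nhd z, hnear] with v h1 h2 hcv hj
  obtain ⟨j, hj, hja, hjb, hjc⟩ := hj
  have h4 : 4 ≤ (T v).ncard := (h2 j (h1 hj) hja hjb hjc).2 (by rintro m (rfl | rfl) <;> assumption)
  -- exact pairs at `v`
  have hexv : ∀ i ∈ T v, i ≠ a → i ≠ b → i ≠ c → ∃ p, dist p v = 1 ∧ T p = {c, i} := by
    intro i hi hia hib hic
    obtain ⟨h5, -⟩ := h2 i (h1 hi) hia hib hic
    have hqw : dist (q i + (v - z)) v = 1 := by
      have h6 := (hq i (h1 hi) hia hib hic).1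
      rw [dist_eq_norm] at h6 ⊢
      rw [← h6]; congr 1; ring
    exact ⟨q i + (v - z), hqw, h.pair_of_sub hqw (h.sub v hcv) (h.sub v hi) h5⟩
  constructor
  · by_contra hav
    by_cases hbv : b ∈ T v
    · exact h.degree hmin h4 hcv hbv hcb fun i hi hic hib =>
        hexv i hi (fun h5 => hav (h5 ▸ hi)) hib hic
    · exact h.degree hmin h4 hcv hj (Ne.symm hjc) fun i hi hic _ =>
        hexv i hi (fun h5 => hav (h5 ▸ hi)) (fun h5 => hbv (h5 ▸ hi)) hic
  · by_contra hbv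
    by_cases hav : a ∈ T v
    · exact h.degree hmin h4 hcv hav hca fun i hi hic hia =>
        hexv i hi hia (fun h5 => hbv (h5 ▸ hi)) hic
    · exact h.degree hmin h4 hcv hj (Ne.symm hjc) fun i hi hic _ =>
        hexv i hi (fun h5 => hav (h5 ▸ hi)) (fun h5 => hbv (h5 ▸ hi)) hic

/-- **D0 rays at centres with any number of colours.**  `T z` has at least four colours, the arc of `S(z)` at the
direction `α₀` has the palette `{a, b}`, and the colour `c` is exact at `z` with every other colour of `T z` but `a`,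
`b`.  Then one of the two thin wedges at `z` orthogonal to the arc is solid `c`, and the other one has none of the
colours `a`, `b`, `c`. -/
theorem rays (h : Irr U T)
    (hmin : ∀ z, 4 ≤ (T z).ncard → ∀ s, s ⊆ T z → s ≠ T z →
      ¬ ∀ᶠ w in 𝓝 z, ∃ i ∈ s, w ∈ U i ∨ (w ∈ XX U ∧ i ∈ Pal U w)) {z : ℂ} (h4 : 4 ≤ (T z).ncard)
    {a b c : Fin k} (ha : a ∈ T z) (hb : b ∈ T z) (hc : c ∈ T z) (hca : c ≠ a) (hcb : c ≠ b)
    (hex : ∀ j ∈ T z, j ≠ a → j ≠ b → j ≠ c → ∃ q, dist q z = 1 ∧ T q = {c, j})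
    {α₀ : ℝ} (harc : ∀ᶠ q in 𝓝[sphere z 1] (z + cis α₀), T q = {a, b}) :
    ∃ ε > 0,
      ((∀ α, |α - α₀| < ε → ∀ τ, 0 < τ → τ < ε → T (Wd z α τ) = {c}) ∧
        (∀ α, |α - α₀| < ε → ∀ τ, 0 < τ → τ < ε → T (Wd z α (-τ)) ⊆ T z \ {a, b, c})) ∨
      ((∀ α, |α - α₀| < ε → ∀ τ, 0 < τ → τ < ε → T (Wd z α τ) ⊆ T z \ {a, b, c}) ∧
        (∀ α, |α - α₀| < ε → ∀ τ, 0 < τ → τ < ε → T (Wd z α (-τ)) = {c})) := by
  have A : Arc U T z α₀ a b {c} (T z \ {a, b, c}) :=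
    { arc := harc
      sub := fun i hi => by
        by_cases h1 : i = a
        · exact Or.inl h1
        · by_cases h2 : i = b
          · exact Or.inr (Or.inl h2)
          · by_cases h3 : i = c
            · exact Or.inr (Or.inr (Or.inl h3))
            · refine Or.inr (Or.inr (Or.inr ⟨hi, ?_⟩))
              rintro (h4 | h4 | h4)
              · exact h1 h4
              · exact h2 h4
              · exact h3 h4
      p1 := by
        filter_upwards [p1_of h hmin hca hcb hex] with v hv h1 h2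
        obtain ⟨i, hi, rfl⟩ := h1
        obtain ⟨j, hj, -, hj'⟩ := h2
        exact hv hi ⟨j, hj, fun h5 => hj' (Or.inl h5), fun h5 => hj' (Or.inr (Or.inl h5)),
          fun h5 => hj' (Or.inr (Or.inr h5))⟩
      ha := ha
      hb := hb
      aK := fun h1 => hca (Eq.symm h1)
      bK := fun h1 => hcb (Eq.symm h1)
      aL := fun h1 => h1.2 (Or.inl rfl)
      bL := fun h1 => h1.2 (Or.inr (Or.inl rfl)) }
  have hL : (T z ∩ (T z \ {a, b, c})).Nonempty := by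
    by_contra hcon
    have h1 : T z ⊆ {a, b, c} := by
      intro i hi
      by_contra hi'
      exact hcon ⟨i, hi, hi, hi'⟩
    have h2 := Set.ncard_le_ncard h1 (Set.toFinite _)
    have h3 := Set.ncard_insert_le a ({b, c} : Set (Fin k))
    have h5 := Set.ncard_insert_le b ({c} : Set (Fin k))
    rw [Set.ncard_singleton] at h5
    omega
  have hsingle : ∀ v, T v ⊆ {c} → T v = {c} := by
    intro v hv
    obtain ⟨i, hi⟩ := h.ne v
    refine Subset.antisymm hv ?_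
    rintro m rfl
    have : i = m := hv hi
    exact this ▸ hi
  obtain ⟨ε, hε, hrays⟩ := A.rays h hmin h4
    (disjoint_left.2 fun i hi hi' => hi'.2 (Or.inr (Or.inr hi))) ⟨c, hc, rfl⟩ hL
  refine ⟨ε, hε, ?_⟩
  rcases hrays with ⟨h1, h2⟩ | ⟨h1, h2⟩
  · exact Or.inl ⟨fun α hα τ h0 hτ => hsingle _ (h1 α hα τ h0 hτ), h2⟩
  · exact Or.inr ⟨h1, fun α hα τ h0 hτ => hsingle _ (h2 α hα τ h0 hτ)⟩

/-- the points of the wedges in polar coordinates about `z` -/
theorem Wd_polar (z : ℂ) (α τ : ℝ) :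
    Wd z α τ = z + ((2 * Real.sin (τ / 2) : ℝ) : ℂ) * cis (α + τ / 2 - Real.pi / 2) := by
  have h1 : ∀ s t : ℝ, cis (s + t) = cis s * cis t := by
    intro s t
    unfold cis
    rw [← Complex.exp_add]; congr 1; push_cast; ring
  have h2 : cis α = cis (α + τ / 2) * cis (-(τ / 2)) := by rw [← h1]; congr 1; ring
  have h3 : cis (α + τ) = cis (α + τ / 2) * cis (τ / 2) := by rw [← h1]; congr 1; ring
  have h4 : cis (α + τ / 2 - Real.pi / 2) = cis (α + τ / 2) * (-Complex.I) := by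
    rw [sub_eq_add_neg, h1]
    congr 1
    unfold cis
    rw [show ((-(Real.pi / 2) : ℝ) : ℂ) * Complex.I = -(Real.pi / 2 * Complex.I) by push_cast; ring,
      Complex.exp_neg, Complex.exp_pi_div_two_mul_I, Complex.inv_I]
  have h5 : cis (-(τ / 2)) - cis (τ / 2) = -Complex.I * ((2 * Real.sin (τ / 2) : ℝ) : ℂ) := by
    unfold cis
    push_cast
    rw [Complex.sin]
    have hI : Complex.I * Complex.I = -1 := Complex.I_mul_I
    linear_combination (Complex.exp (-((τ : ℂ) / 2) * Complex.I) - Complex.exp ((τ : ℂ) / 2 * Complex.I)) * hI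
  unfold Wd
  rw [h4]
  calc z + cis α - cis (α + τ) = z + cis (α + τ / 2) * (cis (-(τ / 2)) - cis (τ / 2)) := by
        rw [h2, h3]; ring
    _ = _ := by rw [h5]; ring

end Vale.Agent.P032.H660
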